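import Vale.Agent.P134C.Defs
import Vale.Agent.P134W.Defs

/-!
# P134R, block (c): two paraboloids force a small deficit; the remainder of the two-point identity
-/

open scoped RealInnerProductSpace
open Vale.Agent.P366.Stmt (E)

noncomputable section

namespace Vale.Agent.P134R

open Vale.Agent.P134B Vale.Agent.P134C

variable {n : ℕ}

/-- the phase lies above the tangent paraboloid of opening `μ` -/
def Lo (u : E n → ℝ) (μ : ℝ) (x : E n) : Prop :=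
  ∀ z, ps u x + ⟪pp u x, z⟫ - μ * ‖z‖ ^ 2 / 2 ≤ ps u (x + z)

/-- the phase lies below the tangent paraboloid of opening `ν` -/
def Up (u : E n → ℝ) (ν : ℝ) (x : E n) : Prop :=
  ∀ z, ps u (x + z) ≤ ps u x + ⟪pp u x, z⟫ + ν * ‖z‖ ^ 2 / 2

/-- the two properties of a remainder that are used -/
structure Rok (u : E n → ℝ) (μ : ℝ) (x : E n) (R : ℝ) : Prop where
  nn : qq u x ≤ √2 * μ → 0 ≤ R
  lo : 1 / 2 ≤ |u x| → -(4 * Real.exp n * ff u x * qq u x) ≤ R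

/-- **UNS**: a stable solution is not small on a large ball -/
def UNS : Prop := ∀ n : ℕ, ∃ R : ℝ, 0 < R ∧ ∀ u : E n → ℝ, Continuous u → Stab u →
  ∀ x, ∃ y, ‖y - x‖ ≤ R ∧ 1 / 4 ≤ u y ^ 2

/-- **QP**: two paraboloids at logarithmic depth -/
def QP : Prop := ∀ (n : ℕ) (C M : ℝ), ∃ K Γ₀ : ℝ, 0 < K ∧ 0 < Γ₀ ∧ ∀ (u : E n → ℝ) (x : E n)
  (Γ : ℝ), Ok C u → Stab u → 0 < Γ → Γ ≤ Γ₀ → Lo u Γ x → Up u Γ x → |ps u x| ≤ M * lg Γ →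
  qq u x ≤ K * (Γ * √Γ)

/-- **QL**: two paraboloids at any depth -/
def QL : Prop := ∀ (n : ℕ) (C : ℝ), ∃ K : ℝ, 0 < K ∧ ∀ (u : E n → ℝ) (x : E n),
  Ok C u → Stab u → ‖SS u x‖ ≤ Gam u x ∧ qq u x ≤ K * Gam u x

/-- **RO**: the remainders have the two properties -/
def RO : Prop := ∀ (n : ℕ) (C : ℝ) (u : E n → ℝ) (x : E n), Ok C u →
  (∀ z, P134W.CA u x z → Rok u (mu u x) x (P134W.RA u x z)) ∧
  ∀ e, P134W.CB u x e → Rok u (mu u x) x (P134W.RB u x e)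

/-- **E3A**: if `s ≤ ω₁ ≤ A s` and `s ≤ ω₂`, then `th ρ² φ R ≥ -η Pt` (`ρ = 1 / μ`, `φ = 1 / ω₁`) -/
def E3A : Prop := ∀ (n : ℕ) (C A η : ℝ), 0 < η → ∃ s₀ : ℝ, 0 < s₀ ∧ ∀ (u : E n → ℝ) (x : E n)
  (μ ν s R : ℝ), Ok C u → Stab u → s₀ ≤ s → 0 < μ → 0 ≤ ν → Lo u μ x → Up u ν x →
  μ * (s - ps u x) ≤ th u x → th u x ≤ μ * (A * s - ps u x) → ν * (s + ps u x) ≤ th u x →
  Rok u μ x R → -(η * Pt u x * (μ * (th u x + ps u x * μ))) ≤ th u x * R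

/-- **E3**: the remainder of an active branch, `th ρ² φ² R ≥ -η Pt φ` (`ρ = 1 / mu`, `φ = ph`);
for the second branch use `-u` -/
def E3 : Prop := ∀ (n : ℕ) (C A η : ℝ), 0 < η → ∃ g₀ : ℝ, 0 < g₀ ∧ ∀ (u : E n → ℝ) (x : E n)
  (g R : ℝ), Ok C u → Stab u → 0 < g → g ≤ g₀ → ph u x ≤ g → ph (-u) x ≤ g → g ≤ A * ph u x →
  ((∃ z, P134W.CA u x z ∧ R = P134W.RA u x z) ∨ ∃ e, P134W.CB u x e ∧ R = P134W.RB u x e) →
  -(η * Pt u x * ph u x) ≤ th u x * (mu u x)⁻¹ ^ 2 * ph u x ^ 2 * R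

end Vale.Agent.P134R
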