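import Vale.Agent.P134R.Tool

/-!
# P134R: the sign and the size of the remainder
-/

open scoped RealInnerProductSpace
open Vale.Agent.P366.Stmt (E)

noncomputable section

namespace Vale.Agent.P134R

open Vale.Agent.P134B Vale.Agent.P134C Vale.Agent.P134T Real

theorem tanh_add' (a d : ℝ) : tanh (a + d) * (1 + tanh a * tanh d) = tanh a + tanh d := by
  have := cosh_pos a
  have := cosh_pos d
  have k := cosh_pos (a + d)
  simp only [tanh_eq_sinh_div_cosh]
  rw [div_mul_eq_mul_div, div_eq_iff k.ne', sinh_add, cosh_add]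
  field_simp

theorem tanh_nn {d : ℝ} (h : 0 ≤ d) : 0 ≤ tanh d := by
  rw [tanh_eq_sinh_div_cosh]
  exact div_nonneg (sinh_nonneg_iff.2 h) (cosh_pos d).le

theorem tanh_le {d : ℝ} (h : 0 ≤ d) : tanh d ≤ d := by
  have a := monotone_of_hasDerivAt_nonneg (f := fun t => t * cosh t - sinh t)
    (f' := fun t => t * sinh t) (fun t =>
      (((hasDerivAt_id t).mul (hasDerivAt_cosh t)).sub (hasDerivAt_sinh t)).congr_deriv (by simp))
    (fun t => by
      rcases le_total 0 t with k | k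
      · exact mul_nonneg k (sinh_nonneg_iff.2 k)
      · exact mul_nonneg_of_nonpos_of_nonpos k (sinh_nonpos_iff.2 k)) h
  rw [tanh_eq_sinh_div_cosh, div_le_iff₀ (cosh_pos d)]
  simp only [zero_mul, sinh_zero, sub_zero] at a
  linarith

theorem sub_tanh {d : ℝ} (h : 0 ≤ d) : d - tanh d ≤ d * tanh d := by
  have c := cosh_pos d
  have a1 := cosh_sub_sinh d
  have a2 : exp (-d) ≤ 1 := exp_le_one_iff.2 (by linarith)
  have a3 := self_le_sinh_iff.2 h
  rw [tanh_eq_sinh_div_cosh, sub_le_iff_le_add, ← add_one_mul, ← mul_div_assoc, le_div_iff₀ c]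
  nlinarith

theorem one_sub_tanh {d m : ℝ} (h : 0 ≤ d) (k : 2 * d ≤ m) : 1 ≤ exp m * (1 - tanh d) := by
  have c := cosh_pos d
  have a1 : 1 - tanh d = exp (-d) / cosh d := by
    rw [tanh_eq_sinh_div_cosh, ← cosh_sub_sinh]; field_simp
  have a2 : cosh d ≤ exp d := by linarith [cosh_add_sinh d, sinh_nonneg_iff.2 h]
  rw [a1, ← mul_div_assoc, le_div_iff₀ c, one_mul, ← exp_add]
  exact a2.trans (exp_le_exp.2 (by linarith))

theorem dT_nn (d : ℝ) : 0 ≤ d * tanh d ∧ d - tanh d ≤ d * tanh d ∧ d * tanh d ≤ d ^ 2 := by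
  rcases le_total 0 d with k | k
  · exact ⟨mul_nonneg k (tanh_nn k), sub_tanh k, by nlinarith [tanh_le k]⟩
  · have a1 := tanh_nn (neg_nonneg.2 k)
    have a2 := tanh_le (neg_nonneg.2 k)
    rw [tanh_neg] at a1 a2
    exact ⟨by nlinarith, by nlinarith, by nlinarith⟩

/-- the numerator -/
def Nm (q r u d : ℝ) : ℝ := q * (tanh d - d - u * (d * tanh d)) + 2 * r * (d * tanh d)

theorem Nm_nn {q r u d : ℝ} (q0 : 0 ≤ q) (u1 : u ≤ 1) (h : q ≤ r) : 0 ≤ Nm q r u d := by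
  obtain ⟨a1, a2, -⟩ := dT_nn d
  unfold Nm
  nlinarith [mul_nonneg a1 (sub_nonneg.2 h), mul_nonneg q0 (sub_nonneg.2 a2),
    mul_nonneg (mul_nonneg q0 a1) (sub_nonneg.2 u1)]

theorem Nm_lo {q r u d m : ℝ} (q0 : 0 ≤ q) (r0 : 0 ≤ r) (u1 : |u| ≤ 1) (u2 : 1 / 2 ≤ |u|)
    (m0 : 0 ≤ m) (h1 : 0 ≤ q + 2 * r * d) (h2 : 2 * u * q ≤ m * r) :
    -(2 * exp m * q * d ^ 2) * (1 + u * tanh d) ≤ Nm q r u d := by
  obtain ⟨a1, a2, a3⟩ := dT_nn d
  have e1 : 1 ≤ exp m := one_le_exp m0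
  have T1 := abs_lt.1 (abs_tanh_lt_one d)
  have U := abs_le.1 u1
  have W : 0 ≤ 1 + u * tanh d := by nlinarith
  have b0 : 0 ≤ q * d ^ 2 := by positivity
  have b1 : 0 ≤ r * (d * tanh d) := mul_nonneg r0 a1
  have b2 := mul_le_mul_of_nonneg_left a2 q0
  have b3 := mul_le_mul_of_nonneg_left a3 q0
  have b4 := mul_nonneg q0 a1
  have key : ∀ V : ℝ, V ≤ 2 * exp m * (1 + u * tanh d) → -(q * d ^ 2 * V) ≤ Nm q r u d →
      -(2 * exp m * q * d ^ 2) * (1 + u * tanh d) ≤ Nm q r u d := fun V v1 v2 => by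
    linarith [mul_le_mul_of_nonneg_left v1 b0]
  rcases le_total 0 d with k | k
  · have T0 := tanh_nn k
    rcases le_total 0 u with l | l
    · refine key 2 (by nlinarith [mul_nonneg l T0]) ?_
      unfold Nm
      nlinarith [mul_le_mul_of_nonneg_left U.2 b4]
    · refine key (1 + u * tanh d) (by nlinarith) ?_
      unfold Nm
      have c1 : 0 ≤ q * (-u * tanh d * tanh d) :=
        mul_nonneg q0 (mul_nonneg (mul_nonneg (by linarith) T0) T0)
      nlinarith [mul_le_mul_of_nonneg_left (b2.trans b3) W]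
  · have T0 := tanh_nn (neg_nonneg.2 k)
    have T2 := tanh_le (neg_nonneg.2 k)
    rcases le_total 0 u with l | l
    · rw [abs_of_nonneg l] at u2
      rcases r0.eq_or_lt with rfl | r1
      · have : q = 0 := le_antisymm (by nlinarith) q0
        simp [Nm, this]
      have c1 : 2 * -d ≤ m := le_of_mul_le_mul_left (by nlinarith) r1
      have c2 := one_sub_tanh (neg_nonneg.2 k) c1
      rw [tanh_neg] at T0 T2 c2
      refine key 1 (by nlinarith [mul_nonneg (sub_nonneg.2 U.2) T0]) ?_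
      unfold Nm
      nlinarith [mul_le_mul_of_nonneg_left U.2 b4, mul_nonneg q0 (sub_nonneg.2 T2)]
    · rw [tanh_neg] at T0 T2
      refine key 0 (by positivity) ?_
      unfold Nm
      nlinarith [mul_nonneg b4 (neg_nonneg.2 l), mul_nonneg q0 (sub_nonneg.2 T2)]

variable {n : ℕ} {C : ℝ} {u : E n → ℝ} {x : E n}

theorem m1_eq (u : E n → ℝ) (x : E n) : P134W.m1 u x = mu u x := rfl

theorem RA_eq (h : Ok C u) (x z : E n) : ∃ d : ℝ, √2 * d = ps u (x + z) - ps u x ∧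
    0 < 1 + u x * tanh d ∧ P134W.RA u x z * (1 + u x * tanh d) =
      4 * ff u x / ‖z‖ ^ 2 * Nm (qq u x) (√2 * mu u x) (u x) d := by
  have s2 : (√2 : ℝ) * √2 = 2 := Real.mul_self_sqrt (by norm_num)
  have k3 : √2 * ff u x = 1 - u x ^ 2 := by unfold ff; field_simp
  obtain ⟨d, hd⟩ : ∃ d, √2 * d = ps u (x + z) - ps u x :=
    ⟨(ps u (x + z) - ps u x) / √2, by field_simp⟩
  have a := tanh_add' (ps u x / √2) d
  rw [← h.th, show ps u x / √2 + d = ps u (x + z) / √2 by field_simp; linarith, ← h.th] at a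
  have T1 := abs_lt.1 (abs_tanh_lt_one d)
  have U := abs_lt.1 (h.lt x)
  refine ⟨d, hd, by nlinarith, ?_⟩
  have b : (u (x + z) - u x) * (1 + u x * tanh d) = √2 * ff u x * tanh d := by
    rw [k3]; linear_combination a
  rw [P134W.RA, ← hd, m1_eq, Nm, div_eq_mul_inv, div_eq_mul_inv]
  linear_combination 2 * √2 * (‖z‖ ^ 2)⁻¹ * (qq u x + 2 * mu u x * (√2 * d)) * b +
    2 * (‖z‖ ^ 2)⁻¹ * ff u x * (qq u x * (tanh d - d - u x * (d * tanh d)) +
      2 * √2 * mu u x * (d * tanh d)) * s2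

theorem ro : RO := by
  intro n C u x h
  have s2 : (√2 : ℝ) * √2 = 2 := Real.mul_self_sqrt (by norm_num)
  have f0 := h.tff_pos x
  have q0 := h.q0 x
  have m0 := mu_nn h x
  have U := abs_lt.1 (h.lt x)
  have e1 : 1 ≤ exp n := one_le_exp n.cast_nonneg
  refine ⟨fun z c => ?_, fun e c => ⟨fun k => ?_, fun _ => ?_⟩⟩
  · obtain ⟨d, hd, W, e⟩ := RA_eq h x z
    have z0 : 0 < ‖z‖ ^ 2 := pow_pos (norm_pos_iff.2 c.ne) 2
    have p0 : 0 ≤ 4 * ff u x / ‖z‖ ^ 2 := by positivity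
    refine ⟨fun k => nonneg_of_mul_nonneg_left (e ▸ mul_nonneg p0 (Nm_nn q0 U.2.le k)) W,
      fun k => le_of_mul_le_mul_right ?_ W⟩
    have a1 := h.q0 (x + z)
    rw [c.qy, ← hd, m1_eq] at a1
    have a2 := mul_le_mul_of_nonneg_left ((lo_mu h x).tr h) (Real.sqrt_nonneg 2)
    have a3 := Nm_lo (d := d) (r := √2 * mu u x) q0 (by positivity) (h.lt x).le k n.cast_nonneg
      (by linarith) (by linear_combination a2 - u x * qq u x * s2)
    have a4 : 2 * d ^ 2 ≤ ‖z‖ ^ 2 := by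
      have := pow_le_pow_left₀ (abs_nonneg _) (h.tlip x (x + z)) 2
      rw [← hd, add_sub_cancel_left, sq_abs, mul_pow, Real.sq_sqrt zero_le_two] at this
      exact this
    rw [e]
    refine le_trans ?_ (mul_le_mul_of_nonneg_left a3 p0)
    rw [← mul_assoc]
    refine mul_le_mul_of_nonneg_right ?_ W.le
    rw [mul_neg, neg_le_neg_iff, div_mul_eq_mul_div, div_le_iff₀ z0]
    linarith [mul_le_mul_of_nonneg_left a4 (show 0 ≤ 4 * exp n * ff u x * qq u x by positivity)]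
  · refine mul_nonneg (by positivity) ?_
    rw [m1_eq]
    nlinarith [mul_le_mul_of_nonneg_right U.2.le q0, mul_nonneg (Real.sqrt_nonneg 2) m0]
  · have a1 : pe u e x ^ 2 ≤ 1 := by
      rw [sq_le_one_iff_abs_le_one]
      exact (abs_real_inner_le_norm _ _).trans (by rw [c.one, mul_one]; exact h.tpp_le x)
    have a2 : -(2 * qq u x) ≤ 4 * √2 * mu u x - 2 * u x * qq u x := by
      nlinarith [mul_le_mul_of_nonneg_right U.2.le q0, mul_nonneg (Real.sqrt_nonneg 2) m0]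
    have a3 := mul_le_mul_of_nonneg_left a2 (show 0 ≤ ff u x * pe u e x ^ 2 by positivity)
    have a4 := mul_nonneg f0.le q0
    rw [P134W.RB, m1_eq]
    nlinarith [mul_le_mul_of_nonneg_left a1 a4, mul_le_mul_of_nonneg_left e1 a4]

end Vale.Agent.P134R
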