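import Vale.Agent.P134R.Qg
import Vale.Agent.P134R.Ro

/-!
# P134R: the row E3
-/

open scoped RealInnerProductSpace
open Vale.Agent.P366.Stmt (E)
open Vale.Agent.P366W (trc)

noncomputable section

namespace Vale.Agent.P134R

open Vale.Agent.P134B Vale.Agent.P134C Vale.Agent.P134T Vale.Agent.P134B.Sy

variable {n : ℕ} {C : ℝ} {u : E n → ℝ} {x : E n}

theorem hs_le_Pt (h : Ok C u) (x : E n) : hs (SS u x) ≤ Pt u x := by
  have t0 := th_lo u x
  have a : 0 ≤ PP u x * qq u x / 2 := by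
    have := h.tff_pos x
    have := h.q0 x
    unfold PP
    positivity
  rw [Pt, le_div_iff₀ (by linarith)]
  linarith [mul_le_mul_of_nonneg_left (th_hi h x) (hs_nn (SS u x))]

theorem Pt_nn (h : Ok C u) (x : E n) : 0 ≤ Pt u x := (hs_nn _).trans (hs_le_Pt h x)

theorem log_le {s : ℝ} (h : 144 ≤ s) : 3 * Real.log s ≤ s / 2 := by
  have s0 : 0 < s := by linarith
  have a1 : 12 ≤ √s := (Real.le_sqrt (by norm_num) s0.le).2 (by linarith)
  have a2 := Real.log_le_sub_one_of_pos (Real.sqrt_pos.2 s0)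
  rw [Real.log_sqrt s0.le] at a2
  nlinarith [Real.mul_self_sqrt s0.le]

/-- at depth at least `3 log s` -/
theorem deep (h : Ok C u) {s B : ℝ} (s1 : 144 ≤ s) (B1 : 1 ≤ B) (k : 3 * Real.log s ≤ |ps u x|) :
    1 / 2 ≤ |u x| ∧ ff u x * (B * s + |ps u x|) ^ 3 ≤ 1536 * B ^ 3 := by
  have s0 : 0 < s := by linarith
  have τ0 := abs_nonneg (ps u x)
  have f0 := h.tff_pos x
  have f1 := h.fhi x
  generalize |ps u x| = τ at *
  have r1 : 11 / 8 ≤ √2 := (Real.le_sqrt (by norm_num) (by norm_num)).2 (by norm_num)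
  have r2 := Real.sqrt_two_lt_three_halves
  have a1 : s ^ 3 ≤ Real.exp τ := by
    rw [← Real.exp_log s0, ← Real.exp_nat_mul]
    exact Real.exp_le_exp.2 (by push_cast; exact k)
  have a2 : 1 + τ ≤ 8 * Real.exp (τ / 8) := by linarith [Real.add_one_le_exp (τ / 8)]
  have a3 : Real.exp τ * Real.exp (τ / 8) ^ 3 ≤ Real.exp (√2 * τ) := by
    rw [← Real.exp_nat_mul, ← Real.exp_add]
    exact Real.exp_le_exp.2 (by push_cast; nlinarith)
  rw [Real.exp_neg, ← div_eq_mul_inv, le_div_iff₀ (Real.exp_pos _)] at f1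
  have e1 : 1 ≤ Real.exp (τ / 8) := Real.one_le_exp (by positivity)
  have a4 : ff u x * (s ^ 3 * Real.exp (τ / 8) ^ 3) ≤ 3 :=
    calc _ ≤ ff u x * (Real.exp τ * Real.exp (τ / 8) ^ 3) := by gcongr
      _ ≤ ff u x * Real.exp (√2 * τ) := by gcongr
      _ ≤ 3 := by linarith
  refine ⟨?_, ?_⟩
  · have b1 : (12 : ℝ) * 1 ≤ s ^ 3 * Real.exp (τ / 8) ^ 3 := mul_le_mul
      (le_trans (by linarith) (le_self_pow₀ (by linarith) three_ne_zero)) (one_le_pow₀ e1)
      zero_le_one (by positivity)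
    have b2 : ff u x ≤ 1 / 4 := by nlinarith [mul_le_mul_of_nonneg_left b1 f0.le]
    rw [ff, div_le_iff₀ (by positivity)] at b2
    exact abs_le_of_sq_le_sq' (by rw [sq_abs]; linarith) (abs_nonneg _) |>.2
  · have Bs : 1 ≤ B * s := by nlinarith
    calc _ ≤ ff u x * (B * s * (8 * Real.exp (τ / 8))) ^ 3 := by
          gcongr
          nlinarith [mul_le_mul_of_nonneg_left a2 (zero_le_one.trans Bs),
            mul_le_mul_of_nonneg_right Bs τ0]
      _ = 512 * B ^ 3 * (ff u x * (s ^ 3 * Real.exp (τ / 8) ^ 3)) := by ring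
      _ ≤ 512 * B ^ 3 * 3 := by gcongr
      _ = _ := by ring

theorem loss (h : Ok C u) {μ s B η : ℝ} (μ0 : 0 < μ) (s1 : 144 ≤ s) (B1 : 1 ≤ B)
    (d : 3 * Real.log s ≤ |ps u x|) (c : √2 * μ ≤ qq u x) (m1 : 1 ≤ 2 * μ * (B * s + |ps u x|))
    (a4 : 64 * (n + 1) * Real.exp n * (1536 * B ^ 3) ≤ s * η) :
    4 * Real.exp n * ff u x * qq u x ≤ η * Pt u x * (μ * (μ * s)) := by
  obtain ⟨u1, a1⟩ := deep h s1 B1 d
  have n0 : (0 : ℝ) ≤ n := n.cast_nonneg
  have B0 : 0 < B := one_pos.trans_le B1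
  have f0 := h.tff_pos x
  have q0 := h.q0 x
  have P0 := Pt_nn h x
  have a2 : μ * qq u x ≤ 2 * (n + 1) * Pt u x := by
    have b1 := tr_sq (SS u x)
    rw [h.tr, neg_sq, mul_pow, mul_pow, Real.sq_sqrt zero_le_two] at b1
    have b2 : 1 / 4 ≤ u x ^ 2 := by nlinarith [sq_abs (u x)]
    have b3 : μ ≤ qq u x := le_trans (le_mul_of_one_le_left μ0.le Real.one_lt_sqrt_two.le) c
    linarith [mul_le_mul_of_nonneg_left (hs_le_Pt h x) n0, mul_le_mul_of_nonneg_right b3 q0,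
      mul_le_mul_of_nonneg_right b2 (sq_nonneg (qq u x))]
  have a3 : ff u x ≤ 8 * μ ^ 3 * (1536 * B ^ 3) :=
    calc _ = ff u x * 1 ^ 3 := by ring
      _ ≤ ff u x * (2 * μ * (B * s + |ps u x|)) ^ 3 := by gcongr
      _ = 8 * μ ^ 3 * (ff u x * (B * s + |ps u x|) ^ 3) := by ring
      _ ≤ _ := by gcongr
  calc _ ≤ 4 * Real.exp n * (8 * μ ^ 3 * (1536 * B ^ 3)) * qq u x := by gcongr
    _ = 32 * Real.exp n * (1536 * B ^ 3) * μ ^ 2 * (μ * qq u x) := by ring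
    _ ≤ 32 * Real.exp n * (1536 * B ^ 3) * μ ^ 2 * (2 * (n + 1) * Pt u x) := by gcongr
    _ = 64 * (n + 1) * Real.exp n * (1536 * B ^ 3) * (μ ^ 2 * Pt u x) := by ring
    _ ≤ s * η * (μ ^ 2 * Pt u x) := by gcongr
    _ = _ := by ring

theorem shallow {μ s t θ : ℝ} (μ0 : 0 ≤ μ) (s1 : 144 ≤ s) (d : |t| ≤ 3 * Real.log s) (θ1 : θ ≤ 1)
    (k : μ * (s - t) ≤ θ) : μ ≤ 2 / s := by
  rw [le_div_iff₀ (by linarith)]
  linarith [mul_le_mul_of_nonneg_left ((le_abs_self t).trans (d.trans (log_le s1))) μ0]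

theorem lg_ge {s : ℝ} (s1 : 144 ≤ s) : 3 * Real.log s ≤ 6 * lg (2 / s) := by
  rw [lg, ← Real.log_inv, inv_div]
  have : Real.log s ≤ Real.log ((s / 2) ^ 2) := Real.log_le_log (by linarith) (by nlinarith)
  rw [Real.log_pow] at this
  push_cast at this
  linarith

theorem tiny {K B s μ τ : ℝ} (K0 : 0 < K) (B1 : 1 ≤ B) (s1 : 144 ≤ s) (μ0 : 0 < μ)
    (k : 128 * K ^ 2 * B ^ 2 ≤ s) (d : τ ≤ 3 * Real.log s) (m1 : 1 ≤ 2 * μ * (B * s + τ)) :
    K * (2 / s * √(2 / s)) ≤ √2 * μ := by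
  have s0 : 0 < s := by linarith
  have B0 : 0 < B := by linarith
  have a6 : √(2 / s) ≤ 1 / (8 * K * B) := by
    rw [Real.sqrt_le_iff, div_pow, div_le_div_iff₀ s0 (by positivity)]
    exact ⟨by positivity, by linarith⟩
  have a8 : 1 / (4 * B * s) ≤ μ := by
    rw [div_le_iff₀ (by positivity)]
    linarith [mul_le_mul_of_nonneg_left B1 (mul_pos μ0 s0).le, mul_pos μ0 s0,
      mul_le_mul_of_nonneg_left (d.trans (log_le s1)) μ0.le]
  calc _ ≤ K * (2 / s * (1 / (8 * K * B))) := by gcongr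
    _ = 1 / (4 * B * s) := by field_simp; ring
    _ ≤ _ := a8.trans (le_mul_of_one_le_left μ0.le Real.one_lt_sqrt_two.le)

theorem e3a : E3A := by
  intro n C A η η0
  obtain ⟨K, Γ₀, K0, Γ0, hK⟩ := qp n C 6
  obtain ⟨B, hB⟩ : ∃ B, B = |A| + 1 := ⟨_, rfl⟩
  have B1 : 1 ≤ B := hB ▸ le_add_of_nonneg_left (abs_nonneg A)
  have B0 : 0 < B := one_pos.trans_le B1
  refine ⟨144 + 2 / Γ₀ + 128 * K ^ 2 * B ^ 2 + 64 * (n + 1) * Real.exp n * (1536 * B ^ 3) / η,
    by positivity, fun u x μ ν s R h st hs μ0 ν0 lo up k1 k2 k3 r => ?_⟩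
  have p1 : 0 < 2 / Γ₀ := by positivity
  have p2 : 0 < 128 * K ^ 2 * B ^ 2 := by positivity
  have p3 : 0 < 64 * (n + 1) * Real.exp n * (1536 * B ^ 3) / η := by positivity
  have s1 : 144 ≤ s := by linarith
  have s0 : 0 < s := by linarith
  have t0 : 0 ≤ th u x := by linarith [th_lo u x]
  have t1 := th_hi h x
  have P0 := mul_nonneg η0.le (Pt_nn h x)
  have w1 : μ * s ≤ th u x + ps u x * μ := by linarith
  have w2 := mul_le_mul_of_nonneg_left (mul_le_mul_of_nonneg_left w1 μ0.le) P0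
  have m1 : 1 ≤ 2 * μ * (B * s + |ps u x|) := by
    have : A * s ≤ B * s := mul_le_mul_of_nonneg_right (by linarith [le_abs_self A]) s0.le
    linarith [mul_le_mul_of_nonneg_left this μ0.le, th_lo u x,
      mul_le_mul_of_nonneg_left (neg_abs_le (ps u x)) μ0.le]
  have easy : qq u x ≤ √2 * μ → -(η * Pt u x * (μ * (th u x + ps u x * μ))) ≤ th u x * R :=
    fun c => by
      have a2 : 0 ≤ η * Pt u x * (μ * (μ * s)) := by positivity
      linarith [mul_nonneg t0 (r.nn c)]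
  rcases le_total (3 * Real.log s) |ps u x| with d | d
  · rcases le_total (qq u x) (√2 * μ) with c | c
    · exact easy c
    have a5 := loss h μ0 s1 B1 d c m1 ((div_le_iff₀ η0).1 (by linarith))
    have a6 : 0 ≤ 4 * Real.exp n * ff u x * qq u x :=
      mul_nonneg (mul_nonneg (by positivity) (h.tff_pos x).le) (h.q0 x)
    linarith [mul_le_mul_of_nonneg_left (r.lo (deep h s1 B1 d).1) t0,
      mul_le_mul_of_nonneg_right t1 a6]
  · refine easy ((hK u x _ h st (by positivity) (by rw [div_le_comm₀ s0 Γ0]; linarith)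
      (lo.mono (shallow μ0.le s1 d t1 k1)) (up.mono (shallow ν0 s1 ((abs_neg _).trans_le d) t1
        (by rwa [sub_neg_eq_add]))) (d.trans (lg_ge s1))).trans (tiny K0 B1 s1 μ0 ?_ d m1))
    linarith

theorem ph_cut (h : Ok C u) {g : ℝ} (g0 : 0 < g) (g1 : g < 1) (k : ph u x ≤ g) :
    mu u x * (g⁻¹ - ps u x) ≤ th u x ∧ ph u x * (th u x + ps u x * mu u x) = mu u x := by
  have t0 := th_lo u x
  rcases (mu_nn h x).eq_or_lt with e | e
  · rw [ph, ← e]
    exact ⟨by linarith, by simp⟩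
  rcases le_total (th u x + ps u x * mu u x) (mu u x) with c | c
  · rw [ph, max_eq_right c, div_self e.ne'] at k
    linarith
  rw [ph, max_eq_left c] at k ⊢
  rw [div_le_iff₀ (e.trans_le c), ← inv_mul_le_iff₀ g0] at k
  exact ⟨by linarith, div_mul_cancel₀ _ (e.trans_le c).ne'⟩

theorem e3 : E3 := by
  intro n C A η η0
  obtain ⟨s₀, s0, hs⟩ := e3a n C A η η0
  refine ⟨min (1 / 2) s₀⁻¹, by positivity, fun u x g R h st g0 hg k1 k2 k3 hR => ?_⟩
  have g1 : g < 1 := (hg.trans (min_le_left _ _)).trans_lt (by norm_num)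
  obtain ⟨a1, a2⟩ := ph_cut h g0 g1 k1
  have a3 := (ph_cut (ok h) g0 g1 k2).1
  have φ0 : 0 < ph u x := (ph_nn h x).lt_of_ne fun e => by rw [← e] at k3; linarith
  have μ0 : 0 < mu u x := (mu_nn h x).lt_of_ne fun e => by simp [ph, ← e] at φ0
  have r : Rok u (mu u x) x R := by
    rcases hR with ⟨z, c, rfl⟩ | ⟨e, c, rfl⟩
    exacts [(ro n C u x h).1 z c, (ro n C u x h).2 e c]
  have W0 : 0 < th u x + ps u x * mu u x := (mul_pos_iff_of_pos_left φ0).1 (a2.symm ▸ μ0)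
  have a4 : th u x ≤ mu u x * (A * g⁻¹ - ps u x) := by
    have b1 := mul_le_mul_of_nonneg_right k3 W0.le
    rw [mul_assoc, a2, ← le_inv_mul_iff₀ g0] at b1
    linarith
  have a5 := hs u x _ _ g⁻¹ R h st ((le_inv_comm₀ s0 g0).2 (hg.trans (min_le_right _ _))) μ0
    (mu_nn (ok h) x) (lo_mu h x) (up_mu h x) a1 a4 (by
      rwa [ps_neg, Pi.neg_apply, sub_neg_eq_add, th, qq_neg] at a3) r
  have a6 : ph u x = mu u x / (th u x + ps u x * mu u x) := eq_div_of_mul_eq W0.ne' a2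
  have a7 := mul_le_mul_of_nonneg_right a5 (sq_nonneg (th u x + ps u x * mu u x)⁻¹)
  rw [a6]
  generalize th u x + ps u x * mu u x = W at *
  calc _ = -(η * Pt u x * (mu u x * W)) * W⁻¹ ^ 2 := by field_simp
    _ ≤ _ := a7
    _ = _ := by field_simp

end Vale.Agent.P134R
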