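import Vale.Agent.P134R.Qp

/-!
# P134R: the rows QG, QL, NB
-/

open Metric
open scoped RealInnerProductSpace
open Vale.Agent.P366.Stmt (E)
open Vale.Agent.P366W (trc abs_trc_le)

noncomputable section

namespace Vale.Agent.P134R

open Vale.Agent.P134B Vale.Agent.P134C Vale.Agent.P134T Vale.Agent.P134B.Sy

variable {n : ℕ} {C Γ : ℝ} {u : E n → ℝ} {x : E n}

theorem lo_gam (h : Ok C u) (k : Gam u x ≤ Γ) : Lo u Γ x :=
  (lo_mu h x).mono (by linarith [mu_nn (ok h) x, show Gam u x = _ + _ from rfl])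

theorem up_gam (h : Ok C u) (k : Gam u x ≤ Γ) : Up u Γ x :=
  (up_mu h x).mono (by linarith [mu_nn h x, show Gam u x = _ + _ from rfl])

theorem gam_nn (h : Ok C u) (x : E n) : 0 ≤ Gam u x := add_nonneg (mu_nn h x) (mu_nn (ok h) x)

theorem qg : QG := fun n C M => by
  obtain ⟨K, Γ₀, -, Γ0, hK⟩ := qp n C M
  exact ⟨K, Γ₀, Γ0, fun u x γ h st g0 g1 k hx => hK u x γ h st g0 g1 (lo_gam h k) (up_gam h k) hx⟩

theorem S_le (h : Ok C u) (Γ0 : 0 ≤ Γ) (lo : Lo u Γ x) (up : Up u Γ x) : ‖SS u x‖ ≤ Γ :=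
  op_le (h.sy x) Γ0 fun v => abs_le.2 ⟨lo.hess h v, up.hess h v⟩

theorem depth_le (h : Ok C u) {δ : ℝ} (δ0 : 0 < δ) (k : δ ≤ ff u x) : |ps u x| ≤ 3 / δ := by
  have a1 := k.trans (h.fhi x)
  have a2 := Real.add_one_le_exp (√2 * |ps u x|)
  rw [Real.exp_neg, ← div_eq_mul_inv, le_div_iff₀ (Real.exp_pos _)] at a1
  rw [le_div_iff₀ δ0]
  nlinarith [mul_le_mul_of_nonneg_left a2 δ0.le, Real.sqrt_two_lt_three_halves,
    mul_le_mul_of_nonneg_right Real.one_lt_sqrt_two.le (mul_nonneg δ0.le (abs_nonneg (ps u x)))]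

theorem ql0 (n : ℕ) (C : ℝ) : ∃ K > (0 : ℝ), ∀ (u : E n → ℝ) (x : E n) (Γ : ℝ), Ok C u → Stab u →
    0 < Γ → Lo u Γ x → Up u Γ x → qq u x ≤ K * Γ := by
  obtain ⟨K, Γ₀, K0, Γ0, hK⟩ := qp n C 1
  have n0 : (0 : ℝ) ≤ n := n.cast_nonneg
  have e0 := Real.exp_pos 6
  refine ⟨K + 1 / Γ₀ + Real.exp 6 + 2 * n, by positivity, fun u x Γ h st g0 lo up => ?_⟩
  have b1 : 0 ≤ K * Γ := by positivity
  have b2 : 0 ≤ 1 / Γ₀ * Γ := by positivity
  have b3 : 0 ≤ Real.exp 6 * Γ := by positivity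
  have b4 : 0 ≤ n * Γ := by positivity
  have q1 := qq_le u x
  rcases le_total Γ₀ Γ with k1 | k1
  · have : 1 ≤ 1 / Γ₀ * Γ := by rwa [one_div_mul_eq_div, one_le_div Γ0]
    linarith
  rcases le_total (Real.exp (-6)) Γ with k2 | k2
  · rw [Real.exp_neg, inv_le_iff_one_le_mul₀' e0] at k2
    linarith
  rcases le_total (1 / 2) |u x| with k3 | k3
  · have a1 := (abs_trc_le _).trans (mul_le_mul_of_nonneg_left (S_le h g0.le lo up) n0)
    rw [h.tr, abs_neg, abs_mul, abs_mul, abs_of_nonneg (h.q0 x), abs_of_nonneg (Real.sqrt_nonneg 2)]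
      at a1
    nlinarith [mul_le_mul_of_nonneg_right (mul_le_mul Real.one_lt_sqrt_two.le k3 (by norm_num)
      (Real.sqrt_nonneg 2)) (h.q0 x)]
  have a1 : |ps u x| ≤ 3 / (1 / 2) := depth_le h (by norm_num) (by
    rw [ff, le_div_iff₀ (by positivity)]
    nlinarith [Real.sqrt_two_lt_three_halves, sq_abs (u x), abs_nonneg (u x)])
  have a2 : 6 ≤ lg Γ := by
    rw [lg, le_neg, Real.log_le_iff_le_exp g0]
    exact k2
  have a3 := hK u x Γ h st g0 k1 lo up (by linarith)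
  have a4 : √Γ ≤ 1 := Real.sqrt_le_one.2 (k2.trans (Real.exp_le_one_iff.2 (by norm_num)))
  nlinarith [mul_le_mul_of_nonneg_left a4 b1]

theorem ql : QL := fun n C => by
  obtain ⟨K, K0, hK⟩ := ql0 n C
  refine ⟨K, K0, fun u x h st => ⟨S_le h (gam_nn h x) (lo_gam h le_rfl) (up_gam h le_rfl),
    le_of_forall_pos_le_add fun ε hε => ?_⟩⟩
  have a0 : 0 < ε / K := by positivity
  have := hK u x (Gam u x + ε / K) h st (by linarith [gam_nn h x]) (lo_gam h (by linarith))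
    (up_gam h (by linarith))
  rwa [mul_add, mul_div_cancel₀ _ K0.ne'] at this

theorem ph_nn (h : Ok C u) (x : E n) : 0 ≤ ph u x :=
  div_nonneg (mu_nn h x) ((mu_nn h x).trans (le_max_right _ _))

theorem ph_ge (h : Ok C u) {m T : ℝ} (m0 : 0 < m) (k : m ≤ mu u x) (hT : |ps u x| ≤ T) :
    1 / (1 / m + T + 1) ≤ ph u x := by
  have μ0 := m0.trans_le k
  have T0 := (abs_nonneg _).trans hT
  have a1 : 1 ≤ 1 / m * mu u x := by rwa [one_div_mul_eq_div, one_le_div m0]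
  have a2 := mul_le_mul_of_nonneg_right ((le_abs_self _).trans hT) μ0.le
  rw [ph, div_le_div_iff₀ (by positivity) (μ0.trans_le (le_max_right _ _)), one_mul]
  exact max_le (by linarith [th_hi h x]) (by linarith [mul_nonneg T0 μ0.le])

theorem nb : NB := fun n C δ => by
  rcases le_or_gt δ 0 with d0 | d0
  · exact ⟨1, one_pos, fun u x r => absurd r.d0 d0.not_gt⟩
  obtain ⟨K, K0, hK⟩ := ql n C
  obtain ⟨T, hT⟩ : ∃ T, T = 3 / δ + 1 := ⟨_, rfl⟩
  have T0 : 0 < T := by rw [hT]; positivity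
  obtain ⟨a, a0, ha⟩ : ∃ a > (0 : ℝ), a = Real.exp (-(√2 * T)) / √2 := ⟨_, by positivity, rfl⟩
  obtain ⟨b, b0, hb⟩ : ∃ b > (0 : ℝ), b = δ / Real.exp C := ⟨_, by positivity, rfl⟩
  refine ⟨min (a ^ 3 * b ^ 2 / 4) (1 / (1 / (b / (2 * K)) + T + 1)), by positivity,
    fun u x r hx => ?_⟩
  have h := r.ok
  obtain ⟨y, y1, y2⟩ := (infDist_lt_iff r.ne).1 hx
  rw [dist_comm, dist_eq_norm] at y2
  have y3 : δ < ff u y ^ 2 * qq u y := y1
  have f0 := h.tff_pos y
  have f1 := ff_le u y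
  have f2 : ff u y ^ 2 ≤ ff u y := by nlinarith
  have c1 : δ ≤ qq u y := by nlinarith [mul_le_mul_of_nonneg_right (f2.trans f1) (h.q0 y)]
  have c2 : δ ≤ ff u y := by nlinarith [mul_le_mul_of_nonneg_left (qq_le u y) (sq_nonneg (ff u y))]
  have c3 : |ps u x| ≤ T := by
    have := abs_sub_abs_le_abs_sub (ps u x) (ps u y)
    rw [abs_sub_comm] at this
    linarith [depth_le h d0 c2, h.tlip x y]
  have c4 : a ≤ ff u x := le_trans (by rw [ha]; gcongr) (h.flo x)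
  have c5 : b ≤ qq u x := by
    rw [hb, div_le_iff₀' (Real.exp_pos _)]
    refine (c1.trans (har_q h x y)).trans (mul_le_mul_of_nonneg_right (Real.exp_le_exp.2 ?_) (h.q0 x))
    exact mul_le_of_le_one_right (zero_le_one.trans h.C1) y2.le
  refine ⟨(min_le_left _ _).trans ?_, (min_le_right _ _).trans ?_⟩
  · have t0 := th_lo u x
    have t1 : 0 < th u x := by linarith
    have g0 := h.tff_pos x
    have q0 := h.q0 x
    have s1 := Real.one_lt_sqrt_two.le
    have s0 := hs_nn (SS u x)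
    calc _ ≤ ff u x ^ 3 * qq u x ^ 2 / 4 := by gcongr
      _ = ff u x ^ 2 * (1 / 2) * (0 + 1 * ff u x * qq u x * qq u x / 2) := by ring
      _ ≤ ff u x ^ 2 * th u x * (hs (SS u x) + √2 * ff u x * qq u x * qq u x / 2) := by gcongr
      _ = _ := by rw [ft, Pt, PP]; field_simp
  · have c6 : b / K ≤ mu u x + mu (-u) x := by
      rw [div_le_iff₀' K0]
      exact c5.trans (hK u x h r.st).2
    have c7 : b / K = 2 * (b / (2 * K)) := by field_simp
    refine le_trans ?_ (le_max_left _ _)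
    rcases le_total (b / (2 * K)) (mu u x) with k | k
    · exact le_add_of_le_of_nonneg (ph_ge h (by positivity) k c3) (ph_nn (ok h) x)
    · exact le_add_of_nonneg_of_le (ph_nn h x) (ph_ge (ok h) (by positivity) (by linarith)
        (by rwa [ps_neg, Pi.neg_apply, abs_neg]))

end Vale.Agent.P134R
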