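import Vale.Agent.P134R.Defs
import Vale.Agent.P134T.Slab
import Vale.Agent.P134B.SYM
import Vale.Agent.P134J.Loc

/-!
# P134R: Taylor expansions, the inequality of Harnack for `qq`, the equation for `qq`
-/

open Set
open scoped ContDiff RealInnerProductSpace
open Vale.Agent.P366.Stmt (E)
open Vale.Agent.P366W (trc inner_grad)

noncomputable section

namespace Vale.Agent.P134R

open Vale.Agent.P134B Vale.Agent.P134C Vale.Agent.P134T Vale.Agent.P134B.Sy

variable {n : ℕ} {C μ ν : ℝ} {u : E n → ℝ} {x : E n}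

theorem mv01 {f f' : ℝ → ℝ} {B : ℝ} (hf : ∀ t, HasDerivAt f (f' t) t)
    (hB : ∀ t ∈ Icc (0 : ℝ) 1, |f' t| ≤ B) : ∀ t ∈ Icc (0 : ℝ) 1, |f t - f 0| ≤ B := by
  intro t ht
  have h := norm_image_sub_le_of_norm_deriv_le_segment' (a := 0) (b := 1) (C := B)
    (fun s _ => (hf s).hasDerivWithinAt) (fun s hs => hB s (Ico_subset_Icc_self hs)) t ht
  have B0 : 0 ≤ B := (abs_nonneg _).trans (hB 0 ⟨le_rfl, zero_le_one⟩)
  rw [Real.norm_eq_abs, sub_zero] at h
  exact h.trans (mul_le_of_le_one_right B0 ht.2)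

theorem cd_q (h : Ok C u) : ContDiff ℝ ∞ (qq u) := contDiff_const.sub (h.tcp.norm_sq ℝ)

theorem cd_S (h : Ok C u) : ContDiff ℝ ∞ (SS u) := h.tcp.fderiv_right (m := ∞) (by norm_cast)

/-- the inequality of Harnack for `qq` -/
theorem har_q (h : Ok C u) (x y : E n) : qq u y ≤ Real.exp (C * ‖y - x‖) * qq u x := by
  set v := y - x with hv
  have d1 : ∀ t : ℝ, HasDerivAt (fun t : ℝ => qq u (x + t • v)) ⟪gradient (qq u) (x + t • v), v⟫ t :=
    fun t => by
      rw [inner_grad]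
      exact (d2 (c2 (cd_q h)) _).hasFDerivAt.comp_hasDerivAt t (line_der x v t)
  have d3 : ∀ t : ℝ, HasDerivAt (fun t : ℝ => Real.exp (-(C * ‖v‖ * t)))
      (Real.exp (-(C * ‖v‖ * t)) * -(C * ‖v‖)) t := fun t => by
    simpa using ((hasDerivAt_id t).const_mul (C * ‖v‖)).neg.exp
  have a := antitone_of_hasDerivAt_nonpos (fun t => (d1 t).mul (d3 t)) (fun t => by
    have a1 := (real_inner_le_norm _ v).trans
      (mul_le_mul_of_nonneg_right (h.q1 (x + t • v)) (norm_nonneg v))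
    have a2 := mul_le_mul_of_nonneg_right a1 (Real.exp_pos (-(C * ‖v‖ * t))).le
    simp only [Pi.zero_apply]
    linarith) (zero_le_one' ℝ)
  simp only [Pi.mul_apply, one_smul, zero_smul, add_zero, mul_one, mul_zero, neg_zero,
    Real.exp_zero, hv, add_sub_cancel] at a
  rw [Real.exp_neg, ← div_eq_mul_inv, div_le_iff₀ (Real.exp_pos _)] at a
  linarith

theorem inner_le (A : E n →L[ℝ] E n) (z : E n) : |⟪A z, z⟫| ≤ ‖A‖ * ‖z‖ ^ 2 :=
  (abs_real_inner_le_norm _ _).trans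
    ((mul_le_mul_of_nonneg_right (A.le_opNorm z) (norm_nonneg z)).trans_eq (by ring))

theorem pz_line (h : Ok C u) (y z : E n) (t : ℝ) :
    HasDerivAt (fun t : ℝ => ⟪pp u (y + t • z), z⟫) ⟪SS u (y + t • z) z, z⟫ t := by
  simpa using (h.tpp_line y z t).inner ℝ (hasDerivAt_const t z)

theorem tay2 (h : Ok C u) (y z : E n) :
    |ps u (y + z) - ps u y - ⟪pp u y, z⟫| ≤ C * ‖z‖ ^ 2 := by
  have a := mv01 (pz_line h y z) fun t _ => (inner_le _ z).trans
    (mul_le_mul_of_nonneg_right (h.tS_le _) (sq_nonneg _))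
  have b := mv01 (fun t => (h.tps_line y z t).sub ((hasDerivAt_id t).mul_const ⟪pp u y, z⟫))
    (fun t ht => by simpa using a t ht) 1 ⟨zero_le_one, le_rfl⟩
  simp only [Pi.sub_apply, one_smul, zero_smul, add_zero, id, one_mul, zero_mul, sub_zero] at b
  convert b using 2
  ring

theorem tay3 (h : Ok C u) (y z : E n) {D : ℝ}
    (hD : ∀ w, ‖w - y‖ ≤ ‖z‖ → ‖fderiv ℝ (SS u) w‖ ≤ D) :
    |ps u (y + z) - ps u y - ⟪pp u y, z⟫ - ⟪SS u y z, z⟫ / 2| ≤ D * ‖z‖ ^ 3 := by
  have d1 : ∀ t : ℝ, HasDerivAt (fun t : ℝ => ⟪SS u (y + t • z) z, z⟫)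
      ⟪fderiv ℝ (SS u) (y + t • z) z z, z⟫ t := fun t => by
    have k := ((cd_S h).differentiable (by simp) (y + t • z)).hasFDerivAt.comp_hasDerivAt t
      (line_der y z t)
    simpa using (k.clm_apply (hasDerivAt_const t z)).inner ℝ (hasDerivAt_const t z)
  have a := mv01 (B := D * ‖z‖ ^ 3) d1 fun t ht => by
    have k := hD (y + t • z) (by
      rw [add_sub_cancel_left, norm_smul, Real.norm_eq_abs, abs_of_nonneg ht.1]
      exact mul_le_of_le_one_left (norm_nonneg z) ht.2)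
    refine (inner_le _ z).trans ?_
    have k2 := ((fderiv ℝ (SS u) (y + t • z)).le_opNorm z).trans
      (mul_le_mul_of_nonneg_right k (norm_nonneg z))
    exact (mul_le_mul_of_nonneg_right k2 (sq_nonneg _)).trans_eq (by ring)
  have b := mv01 (fun t => (pz_line h y z t).sub ((hasDerivAt_id t).mul_const ⟪SS u y z, z⟫))
    fun t ht => by simpa using a t ht
  have c := mv01 (B := D * ‖z‖ ^ 3) (fun t => ((h.tps_line y z t).sub
    ((hasDerivAt_id t).mul_const ⟪pp u y, z⟫)).sub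
      ((hasDerivAt_pow 2 t).mul_const (⟪SS u y z, z⟫ / 2))) (fun t ht => by
    have := b t ht
    simp only [Pi.sub_apply, zero_smul, add_zero, id, zero_mul, sub_zero] at this
    convert this using 2
    push_cast
    ring) 1 ⟨zero_le_one, le_rfl⟩
  simp only [Pi.sub_apply, one_smul, zero_smul, add_zero, id, one_mul, zero_mul, sub_zero] at c
  convert c using 2
  ring

/-- the norm of a symmetric operator is bounded by its quadratic form -/
theorem op_le {S : E n →L[ℝ] E n} (hS : ∀ v w, ⟪S v, w⟫ = ⟪v, S w⟫) {B : ℝ} (hB : 0 ≤ B)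
    (h : ∀ v, |⟪S v, v⟫| ≤ B * ‖v‖ ^ 2) : ‖S‖ ≤ B := by
  have k : ∀ v w, 2 * ⟪S v, w⟫ ≤ B * (‖v‖ ^ 2 + ‖w‖ ^ 2) := fun v w => by
    have a := (abs_le.1 (h (v + w))).2
    have b := (abs_le.1 (h (v - w))).1
    rw [map_add, inner_add_left, inner_add_right, inner_add_right, norm_add_sq_real] at a
    rw [map_sub, inner_sub_left, inner_sub_right, inner_sub_right, norm_sub_sq_real] at b
    have c : ⟪S w, v⟫ = ⟪S v, w⟫ := by rw [hS w v, real_inner_comm]
    linarith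
  refine S.opNorm_le_bound hB fun v => ?_
  rcases (norm_nonneg (S v)).eq_or_lt with e | e
  · rw [← e]; positivity
  have v0 : 0 < ‖v‖ := norm_pos_iff.2 fun k => by simp [k] at e
  have a := k (‖S v‖ • v) (‖v‖ • S v)
  rw [map_smul, real_inner_smul_left, real_inner_smul_right, real_inner_self_eq_norm_sq, norm_smul,
    norm_smul, norm_norm, norm_norm] at a
  have b : 2 * ‖v‖ * ‖S v‖ ^ 2 * ‖S v‖ ≤ 2 * ‖v‖ * ‖S v‖ ^ 2 * (B * ‖v‖) := by linarith
  exact le_of_mul_le_mul_left b (by positivity)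

theorem hs_le (A : E n →L[ℝ] E n) : hs A ≤ n * ‖A‖ ^ 2 := by
  simpa [hs] using Finset.sum_le_card_nsmul Finset.univ
    (fun i => ‖A (EuclideanSpace.single i 1)‖ ^ 2) (‖A‖ ^ 2) fun i _ =>
      pow_le_pow_left₀ (norm_nonneg _) (by simpa using A.le_opNorm (EuclideanSpace.single i 1)) 2

theorem hs_nn (A : E n →L[ℝ] E n) : 0 ≤ hs A := Finset.sum_nonneg fun _ _ => sq_nonneg _

theorem tr_sq (A : E n →L[ℝ] E n) : trc A ^ 2 ≤ n * hs A := by
  have a := sq_sum_le_card_mul_sum_sq (s := Finset.univ)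
    (f := fun i : Fin n => A (EuclideanSpace.single i 1) i)
  rw [Finset.card_univ, Fintype.card_fin] at a
  refine a.trans (mul_le_mul_of_nonneg_left (Finset.sum_le_sum fun i _ => ?_) n.cast_nonneg)
  rw [← sq_abs]
  exact pow_le_pow_left₀ (abs_nonneg _) (PiLp.norm_apply_le (A (EuclideanSpace.single i 1)) i) 2

/-- the equation for `qq` -/
theorem Lf_q (h : Ok C u) (x : E n) :
    Lf u (qq u) x = 2 * PP u x * ‖pp u x‖ ^ 2 - 2 * hs (SS u x) := by
  have s2 : (√2 : ℝ) * √2 = 2 := Real.mul_self_sqrt (by norm_num)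
  have f0 := h.tff_pos x
  have cf := c2 h.tcf
  have cq := c2 (cd_q h)
  have e : EE u = fun y => ff u y * ff u y * qq u y := funext fun y => by rw [EE]; ring
  have k := h.lE x
  have k3 : √2 * ff u x = 1 - u x ^ 2 := by unfold ff; field_simp
  have e2 : EE u x = ff u x ^ 2 * qq u x := rfl
  have e3 : ‖pp u x‖ ^ 2 = 1 - qq u x := by rw [qq]; ring
  rw [e, lap_mul (cf.mul cf) cq, lap_mul cf cf, grad_mul (d2 (cf.mul cf) x) (d2 cq x),
    grad_mul (d2 cf x) (d2 cf x), h.tlf, h.gf, h.tr, e2] at k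
  simp only [inner_add_left, inner_add_right, real_inner_smul_left, real_inner_smul_right,
    real_inner_self_eq_norm_sq, norm_smul, mul_pow, Real.norm_eq_abs, sq_abs, e3] at k
  rw [Lf, PP, e3]
  refine mul_left_cancel₀ (pow_pos f0 2).ne' ?_
  linear_combination k - 2 * qq u x * ff u x ^ 2 * k3 + 2 * u x ^ 2 * ff u x ^ 2 * qq u x * s2

theorem up_iff : Up u ν x ↔ Lo (-u) ν x := by
  simp only [Up, Lo, ps_neg, pp_neg, Pi.neg_apply, inner_neg_left]
  exact forall_congr' fun z => ⟨fun a => by linarith, fun a => by linarith⟩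

theorem bdd_Z (h : Ok C u) (x : E n) : BddAbove (range (Zq u x)) := by
  refine ⟨2 * C, ?_⟩
  rintro _ ⟨z, rfl⟩
  refine div_le_of_le_mul₀ (sq_nonneg _) (by linarith [h.C1]) ?_
  linarith [(abs_le.1 (tay2 h x z)).1]

theorem mu_nn (h : Ok C u) (x : E n) : 0 ≤ mu u x :=
  le_trans (by simp [Zq]) (le_ciSup (bdd_Z h x) 0)

theorem lo_mu (h : Ok C u) (x : E n) : Lo u (mu u x) x := fun z => by
  rcases eq_or_ne z 0 with rfl | hz
  · simp
  have a : Zq u x z ≤ mu u x := le_ciSup (bdd_Z h x) z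
  rw [Zq, div_le_iff₀ (by positivity)] at a
  linarith

theorem up_mu (h : Ok C u) (x : E n) : Up u (mu (-u) x) x := up_iff.2 (lo_mu (ok h) x)

theorem Lo.mono (h : Lo u μ x) (k : μ ≤ ν) : Lo u ν x := fun z => by
  linarith [h z, mul_le_mul_of_nonneg_right k (sq_nonneg ‖z‖)]

theorem Up.mono (h : Up u μ x) (k : μ ≤ ν) : Up u ν x := fun z => by
  linarith [h z, mul_le_mul_of_nonneg_right k (sq_nonneg ‖z‖)]

theorem DS_le (h : Ok C u) (w : E n) : ‖fderiv ℝ (SS u) w‖ ≤ C := (h.S1 w).trans (by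
  have := Real.sqrt_le_one.2 (qq_le u w)
  nlinarith [h.C1])

theorem Lo.hess (h : Ok C u) (k : Lo u μ x) (v : E n) : -(μ * ‖v‖ ^ 2) ≤ ⟪SS u x v, v⟫ := by
  refine le_of_forall_pos_le_add fun ε hε => ?_
  have C0 : 0 < C := one_pos.trans_le h.C1
  obtain ⟨t, t0, ht⟩ : ∃ t > (0 : ℝ), 2 * C * ‖v‖ ^ 3 * t ≤ ε :=
    ⟨ε / (2 * C * ‖v‖ ^ 3 + 1), by positivity, by
      rw [← mul_div_assoc, div_le_iff₀ (by positivity)]; nlinarith⟩
  have a := (abs_le.1 (tay3 h x (t • v) fun w _ => DS_le h w)).2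
  have b := k (t • v)
  simp only [map_smul, real_inner_smul_left, real_inner_smul_right, norm_smul, Real.norm_eq_abs,
    abs_of_pos t0] at a b
  have c : t ^ 2 * -(μ * ‖v‖ ^ 2) ≤ t ^ 2 * (⟪SS u x v, v⟫ + 2 * C * ‖v‖ ^ 3 * t) := by
    linarith
  linarith [le_of_mul_le_mul_left c (by positivity)]

theorem Up.hess (h : Ok C u) (k : Up u ν x) (v : E n) : ⟪SS u x v, v⟫ ≤ ν * ‖v‖ ^ 2 := by
  have := (up_iff.1 k).hess (ok h) v
  rw [SS_neg] at this
  simpa using this

theorem Lo.tr (h : Ok C u) (k : Lo u μ x) : √2 * u x * qq u x ≤ n * μ := by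
  have a : ∑ _i : Fin n, -μ ≤ trc (SS u x) := Finset.sum_le_sum fun i _ => by
    simpa [EuclideanSpace.inner_single_right] using k.hess h (EuclideanSpace.single i 1)
  rw [h.tr] at a
  simp at a
  linarith

theorem th_lo (u : E n → ℝ) (x : E n) : 1 / 2 ≤ th u x := by
  unfold th; linarith [qq_le u x]

theorem th_hi (h : Ok C u) (x : E n) : th u x ≤ 1 := by
  unfold th; linarith [h.q0 x]

end Vale.Agent.P134R
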