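import Vale.Agent.P134R.Defs

/-!
# P134R: a stable solution is not small on a large ball
-/

open MeasureTheory Metric Set
open Vale.Agent.P366.Stmt (E)
open Vale.Agent.P366W (norm_gradient)

noncomputable section

namespace Vale.Agent.P134R

open Vale.Agent.P134B

theorem uns : UNS := by
  intro n
  let β : ContDiffBump (0 : E n) := ⟨1, 2, by norm_num, by norm_num⟩
  have b1 : ContDiff ℝ 1 β := β.contDiff
  obtain ⟨c, hc⟩ := (b1.continuous_fderiv (by norm_num)).bounded_above_of_compact_support
    (β.hasCompactSupport.fderiv (𝕜 := ℝ))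
  have c0 : 0 ≤ c := (norm_nonneg _).trans (hc 0)
  obtain ⟨R, R0, hR⟩ : ∃ R > (0 : ℝ), (c * R⁻¹) ^ 2 * 2 ^ n < 1 / 4 := by
    refine ⟨4 * 2 ^ n * c ^ 2 + 1, by positivity, ?_⟩
    have a : (0 : ℝ) ≤ 4 * 2 ^ n * c ^ 2 := by positivity
    rw [← div_eq_mul_inv, div_pow, div_mul_eq_mul_div, div_lt_iff₀ (by positivity)]
    nlinarith
  refine ⟨2 * R, by positivity, fun u cu st x => ?_⟩
  by_contra hn
  push Not at hn
  set φ : E n → ℝ := fun y => β (R⁻¹ • (y - x)) with hφ
  have φ1 : ContDiff ℝ 1 φ := b1.comp (by fun_prop)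
  have φ0 : ∀ y, 2 * R ≤ ‖y - x‖ → φ y = 0 := fun y hy => β.zero_of_le_dist (by
    rw [dist_zero_right, norm_smul, Real.norm_of_nonneg (inv_pos.2 R0).le, le_inv_mul_iff₀ R0]
    change R * 2 ≤ _
    linarith)
  have su : tsupport φ ⊆ closedBall x (2 * R) := closure_minimal (fun y hy => by
    rw [mem_closedBall_iff_norm]
    exact (not_le.1 fun k => hy (φ0 y k)).le) isClosed_closedBall
  have cs : HasCompactSupport φ := (isCompact_closedBall x _).of_isClosed_subset isClosed_closure su
  have g1 : ∀ y, ‖gradient φ y‖ ≤ c * R⁻¹ := fun y => by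
    have d1 := (b1.differentiable (by norm_num) (R⁻¹ • (y - x))).hasFDerivAt.comp y
      (((hasFDerivAt_id (𝕜 := ℝ) y).sub_const x).const_smul R⁻¹)
    have d3 : fderiv ℝ φ y = _ := d1.fderiv
    rw [norm_gradient, d3]
    refine (ContinuousLinearMap.opNorm_comp_le _ _).trans
      (mul_le_mul (hc _) ?_ (norm_nonneg _) c0)
    rw [norm_smul, Real.norm_of_nonneg (inv_pos.2 R0).le]
    exact mul_le_of_le_one_right (inv_pos.2 R0).le ContinuousLinearMap.norm_id_le
  have g0 : ∀ y, y ∉ closedBall x (2 * R) → ‖gradient φ y‖ = 0 ∧ φ y = 0 := fun y hy =>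
    ⟨by rw [norm_gradient, image_eq_zero_of_notMem_tsupport
      fun k => hy (su (tsupport_fderiv_subset ℝ k)), norm_zero],
      image_eq_zero_of_notMem_tsupport fun k => hy (su k)⟩
  have cg : Continuous fun y => ‖gradient φ y‖ := by
    simp only [norm_gradient]
    exact (φ1.continuous_fderiv (by norm_num)).norm
  have cφ := φ1.continuous
  have iF : Integrable fun y => ‖gradient φ y‖ ^ 2 + (3 * u y ^ 2 - 1) * φ y ^ 2 :=
    Continuous.integrable_of_hasCompactSupport (by fun_prop)
      (HasCompactSupport.intro (isCompact_closedBall x (2 * R)) fun y hy => by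
        rw [(g0 y hy).1, (g0 y hy).2]; simp)
  have i1 : ∀ r a : ℝ, Integrable ((closedBall x r).indicator fun _ => a) := fun r a =>
    (integrable_indicator_iff measurableSet_closedBall).2
      (integrableOn_const measure_closedBall_lt_top.ne)
  have k := (st φ φ1 cs).trans (integral_mono iF
    ((i1 (2 * R) ((c * R⁻¹) ^ 2)).sub (i1 R (1 / 4))) fun y => by
      by_cases hy : y ∈ closedBall x (2 * R)
      · have a1 := hn y (mem_closedBall_iff_norm.1 hy)
        have a2 := pow_le_pow_left₀ (norm_nonneg _) (g1 y) 2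
        have a3 : (closedBall x R).indicator (fun _ => (1 / 4 : ℝ)) y ≤ 1 / 4 * φ y ^ 2 := by
          by_cases hz : y ∈ closedBall x R
          · have : φ y = 1 := β.one_of_mem_closedBall (by
              rw [mem_closedBall_zero_iff, norm_smul, Real.norm_of_nonneg (inv_pos.2 R0).le,
                inv_mul_le_iff₀ R0]
              change _ ≤ R * 1
              linarith [mem_closedBall_iff_norm.1 hz])
            rw [indicator_of_mem hz, this]
            norm_num
          · rw [indicator_of_notMem hz]
            positivity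
        simp only [Pi.sub_apply, indicator_of_mem hy]
        nlinarith [sq_nonneg (φ y)]
      · have hz : y ∉ closedBall x R := fun k => hy (closedBall_subset_closedBall (by linarith) k)
        simp only [Pi.sub_apply, indicator_of_notMem hy, indicator_of_notMem hz, (g0 y hy).1,
          (g0 y hy).2]
        simp)
  rw [integral_sub' (i1 _ _) (i1 _ _), integral_indicator_const _ measurableSet_closedBall,
    integral_indicator_const _ measurableSet_closedBall,
    Measure.addHaar_real_closedBall _ _ (by positivity),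
    Measure.addHaar_real_closedBall _ _ R0.le, finrank_euclideanSpace_fin, mul_pow] at k
  have v0 : 0 < (volume : Measure (E n)).real (ball 0 1) :=
    ENNReal.toReal_pos (measure_ball_pos _ _ one_pos).ne' measure_ball_lt_top.ne
  have p0 := mul_pos (pow_pos R0 n) v0
  simp only [smul_eq_mul] at k
  nlinarith

end Vale.Agent.P134R
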