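import Vale.Agent.P134R.Tool
import Vale.Agent.P134R.Uns
import Vale.Agent.P134B.BAR
import Vale.Agent.P134B.TL0

/-!
# P134R: a nearly affine phase has a small deficit
-/

open Metric Set Filter Topology
open scoped ContDiff RealInnerProductSpace
open Vale.Agent.P366.Stmt (E)
open Vale.Agent.P366W (trc abs_trc_le)

noncomputable section

namespace Vale.Agent.P134R

open Vale.Agent.P134B Vale.Agent.P134C Vale.Agent.P134T

variable {n : ℕ} {C ρ γ : ℝ} {u : E n → ℝ} {x y : E n}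

/-- the phase is affine up to `γ` on the ball of radius `ρ + 1` -/
def Af (u : E n → ℝ) (x : E n) (ρ γ : ℝ) : Prop :=
  ∀ w, ‖w - x‖ ≤ ρ + 1 → |ps u w - ps u x - ⟪pp u x, w - x⟫| ≤ γ

theorem Af.step (a : Af u x ρ γ) (hy : ‖y - x‖ ≤ ρ) {z : E n} (hz : ‖z‖ ≤ 1) :
    |ps u (y + z) - ps u y - ⟪pp u x, z⟫| ≤ 2 * γ := by
  have a1 := abs_le.1 (a y (by linarith))
  have a2 := abs_le.1 (a (y + z) (by
    rw [add_sub_right_comm]
    exact (norm_add_le _ _).trans (add_le_add hy hz)))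
  rw [add_sub_right_comm, inner_add_right] at a2
  exact abs_le.2 ⟨by linarith, by linarith⟩

theorem Af.grad (h : Ok C u) (a : Af u x ρ γ) (hy : ‖y - x‖ ≤ ρ) :
    ‖pp u y - pp u x‖ ^ 2 ≤ 8 * C * γ := by
  have C1 := h.C1
  have C0 : 0 < C := by linarith
  have n2 : ‖pp u y - pp u x‖ ≤ 2 := (norm_sub_le _ _).trans (by linarith [h.tpp_le y, h.tpp_le x])
  have e : ‖(2 * C)⁻¹ • (pp u y - pp u x)‖ = (2 * C)⁻¹ * ‖pp u y - pp u x‖ := by
    rw [norm_smul, Real.norm_of_nonneg (by positivity)]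
  have a1 := (abs_le.1 (a.step hy (z := (2 * C)⁻¹ • (pp u y - pp u x)) (by
    rw [e, inv_mul_le_iff₀ (by positivity)]; linarith))).2
  have a2 := (abs_le.1 (tay2 h y ((2 * C)⁻¹ • (pp u y - pp u x)))).1
  have a3 : ⟪pp u y, (2 * C)⁻¹ • (pp u y - pp u x)⟫ - ⟪pp u x, (2 * C)⁻¹ • (pp u y - pp u x)⟫ =
      (2 * C)⁻¹ * ‖pp u y - pp u x‖ ^ 2 := by
    rw [← inner_sub_left, real_inner_smul_right, real_inner_self_eq_norm_sq]
  rw [e] at a2
  have a4 : (2 * C)⁻¹ * ‖pp u y - pp u x‖ ^ 2 - C * ((2 * C)⁻¹ * ‖pp u y - pp u x‖) ^ 2 =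
      ‖pp u y - pp u x‖ ^ 2 / (4 * C) := by field_simp; ring
  have a5 : ‖pp u y - pp u x‖ ^ 2 / (4 * C) ≤ 2 * γ := by linarith
  rw [div_le_iff₀ (by positivity)] at a5
  linarith

theorem Af.hess (h : Ok C u) (a : Af u x ρ γ) (hy : ‖y - x‖ ≤ ρ) {t : ℝ} (t0 : 0 < t)
    (t1 : t ≤ 1) : ‖SS u y‖ ≤ 4 * γ / t ^ 2 + 2 * (C * (Real.exp C * √(qq u y))) * t := by
  have C0 : 0 < C := one_pos.trans_le h.C1
  have γ0 : 0 ≤ γ := by
    have := a.step hy (z := 0) (by simp)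
    linarith [abs_nonneg (ps u (y + 0) - ps u y - ⟪pp u x, 0⟫)]
  have hD : ∀ z : E n, ‖z‖ = t → ∀ w, ‖w - y‖ ≤ ‖z‖ →
      ‖fderiv ℝ (SS u) w‖ ≤ C * (Real.exp C * √(qq u y)) := fun z hz w hw => by
    refine (h.S1 w).trans (mul_le_mul_of_nonneg_left (Real.sqrt_le_iff.2 ⟨by positivity, ?_⟩) C0.le)
    rw [mul_pow, Real.sq_sqrt (h.q0 y), sq, ← Real.exp_add]
    refine (har_q h y w).trans (mul_le_mul_of_nonneg_right (Real.exp_le_exp.2 ?_) (h.q0 y))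
    nlinarith [norm_nonneg (w - y)]
  refine op_le (h.sy y) (by positivity) fun v => ?_
  rcases eq_or_ne v 0 with rfl | hv
  · simp
  have v0 : 0 < ‖v‖ := norm_pos_iff.2 hv
  have e : ‖(t / ‖v‖) • v‖ = t := by
    rw [norm_smul, Real.norm_of_nonneg (by positivity), div_mul_cancel₀ _ v0.ne']
  have e2 : ⟪SS u y ((t / ‖v‖) • v), (t / ‖v‖) • v⟫ = (t / ‖v‖) ^ 2 * ⟪SS u y v, v⟫ := by
    rw [map_smul, real_inner_smul_left, real_inner_smul_right]; ring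
  generalize (t / ‖v‖) • v = z at e e2
  have e' : ‖-z‖ = t := by rwa [norm_neg]
  have a1 := abs_le.1 (tay3 h y z (hD z e))
  have a2 := abs_le.1 (tay3 h y (-z) (hD _ e'))
  have a3 := abs_le.1 (a.step hy (e.trans_le t1))
  have a4 := abs_le.1 (a.step hy (e'.trans_le t1))
  rw [map_neg, inner_neg_neg, inner_neg_right, e'] at a2
  rw [inner_neg_right] at a4
  rw [e] at a1
  have a5 : |(t / ‖v‖) ^ 2 * ⟪SS u y v, v⟫| ≤ 4 * γ + 2 * (C * (Real.exp C * √(qq u y))) * t ^ 3 :=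
    abs_le.2 ⟨by linarith, by linarith⟩
  rw [abs_mul, abs_of_nonneg (sq_nonneg _), ← le_div_iff₀' (by positivity)] at a5
  refine a5.trans (le_of_eq ?_)
  field_simp

theorem S_sq (n : ℕ) (C : ℝ) {c : ℝ} (hc : 0 < c) : ∃ K > (0 : ℝ), ∀ (u : E n → ℝ) (x y : E n)
    (ρ γ : ℝ), Ok C u → Af u x ρ γ → ‖y - x‖ ≤ ρ → ‖SS u y‖ ^ 2 ≤ c * qq u y + K * γ ^ 2 := by
  obtain ⟨t, t0, t1, ht⟩ : ∃ t > (0 : ℝ), t ≤ 1 ∧ 8 * (C * Real.exp C) ^ 2 * t ^ 2 ≤ c := by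
    refine ⟨min 1 (c / (8 * (C * Real.exp C) ^ 2 + 1)), by positivity, min_le_left _ _, ?_⟩
    have a1 := min_le_left 1 (c / (8 * (C * Real.exp C) ^ 2 + 1))
    have a2 := min_le_right 1 (c / (8 * (C * Real.exp C) ^ 2 + 1))
    have a0 : 0 < min 1 (c / (8 * (C * Real.exp C) ^ 2 + 1)) := by positivity
    generalize min 1 (c / (8 * (C * Real.exp C) ^ 2 + 1)) = t at *
    rw [le_div_iff₀ (by positivity)] at a2
    have a3 : t ^ 2 ≤ t := by nlinarith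
    nlinarith [mul_le_mul_of_nonneg_left a3 (sq_nonneg (C * Real.exp C))]
  refine ⟨32 / t ^ 4, by positivity, fun u x y ρ γ h a hy => ?_⟩
  refine (pow_le_pow_left₀ (norm_nonneg _) (a.hess h hy t0 t1) 2).trans ?_
  have e1 : (4 * γ / t ^ 2) ^ 2 = 16 / t ^ 4 * γ ^ 2 := by field_simp; ring
  have e2 : (2 * (C * (Real.exp C * √(qq u y))) * t) ^ 2 =
      4 * (C * Real.exp C) ^ 2 * t ^ 2 * qq u y := by
    conv_rhs => rw [← Real.sq_sqrt (h.q0 y)]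
    ring
  have a1 := mul_le_mul_of_nonneg_right ht (h.q0 y)
  have e3 : 32 / t ^ 4 * γ ^ 2 = 2 * (16 / t ^ 4 * γ ^ 2) := by ring
  nlinarith [sq_nonneg (4 * γ / t ^ 2 - 2 * (C * (Real.exp C * √(qq u y))) * t)]

/-- the gradient of the phase is large -/
theorem big (n : ℕ) (C : ℝ) : ∃ R > (0 : ℝ), ∃ γ₀ > (0 : ℝ), ∀ (u : E n → ℝ) (x y : E n) (ρ γ : ℝ),
    Ok C u → Stab u → Af u x ρ γ → R ≤ ρ → 0 ≤ γ → γ ≤ γ₀ → ‖y - x‖ ≤ ρ → qq u y ≤ 1 / 2 := by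
  obtain ⟨R, R0, hR⟩ := uns n
  have m0 : (0 : ℝ) < (n + 1) ^ 2 := by positivity
  obtain ⟨K, K0, hK⟩ := S_sq n C (c := 1 / (400 * (n + 1) ^ 2)) (by positivity)
  refine ⟨R, R0, min (min 1 (1 / (400 * (n + 1) ^ 2 * K))) (1 / (3200 * (|C| + 1))), by positivity,
    fun u x y ρ γ h st a hρ γ0 hγ hy => ?_⟩
  simp only [le_min_iff] at hγ
  obtain ⟨⟨g1, g2⟩, g3⟩ := hγ
  obtain ⟨w, w1, w2⟩ := hR u h.sm.continuous st x
  have s2 : (√2 : ℝ) ^ 2 = 2 := Real.sq_sqrt zero_le_two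
  have a1 := hK u x w ρ γ h a (w1.trans hρ)
  have a2 : trc (SS u w) ^ 2 ≤ (n + 1) ^ 2 * ‖SS u w‖ ^ 2 := by
    rw [← mul_pow, ← sq_abs]
    exact pow_le_pow_left₀ (abs_nonneg _) ((abs_trc_le _).trans
      (mul_le_mul_of_nonneg_right (by linarith) (norm_nonneg _))) 2
  rw [h.tr, neg_sq, mul_pow, mul_pow, s2] at a2
  rw [le_div_iff₀ (by positivity)] at g2 g3
  have a3 : (n + 1) ^ 2 * (1 / (400 * (n + 1) ^ 2) * qq u w) = qq u w / 400 := by field_simp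
  have a4 := mul_le_mul_of_nonneg_left a1 m0.le
  have a5 : (n + 1) ^ 2 * (K * γ ^ 2) ≤ 1 / 400 := by
    nlinarith [mul_le_mul_of_nonneg_left g1 (show 0 ≤ γ * (400 * (n + 1) ^ 2 * K) by positivity)]
  have a6 : qq u w ≤ 1 / 10 := by
    refine abs_le_of_sq_le_sq' ?_ (by norm_num) |>.2
    nlinarith [qq_le u w, mul_le_mul_of_nonneg_right w2 (sq_nonneg (qq u w))]
  have b : ∀ y, ‖y - x‖ ≤ ρ → ‖pp u y - pp u x‖ ≤ 1 / 20 := fun y hy => by
    refine abs_le_of_sq_le_sq' ((a.grad h hy).trans ?_) (by norm_num) |>.2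
    nlinarith [mul_le_mul_of_nonneg_right (le_abs_self C) γ0]
  have b1 := h.tpp_ge w
  have b2 := norm_sub_norm_le (pp u w) (pp u x)
  have b3 := norm_sub_norm_le (pp u x) (pp u y)
  rw [norm_sub_rev] at b3
  have b4 : 4 / 5 ≤ ‖pp u y‖ := by linarith [b y hy, b w (w1.trans hρ)]
  unfold qq
  nlinarith

/-- the barrier -/
theorem bar_le (h : Ok C u) {g μ : ℝ} (g0 : 0 < g) (g1 : g ≤ 1 / 2) (μ0 : 0 ≤ μ)
    (hμ : (n + 4) * μ ≤ g / 2) (hq : qq u y ≤ 1 / 2) :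
    Lf u (fun w => ff u w ^ (-g) * hb μ x w) y ≤
      (2 * √2 * ff u y * (1 - qq u y) - g / 2) * (ff u y ^ (-g) * hb μ x y) := by
  have n0 : (0 : ℝ) ≤ n := n.cast_nonneg
  have F0 : 0 < ff u y ^ (-g) := Real.rpow_pos_of_pos (h.tff_pos y) _
  have G1 := one_le_hb μ x y
  have k3 : √2 * ff u y = 1 - u y ^ 2 := by unfold ff; field_simp
  have u1 : u y ^ 2 ≤ 1 := by have := abs_lt.1 (h.lt y); nlinarith
  have a1 := lap_hb μ0 x y
  have a2 : |⟪pp u y, gradient (hb μ x) y⟫| ≤ μ * hb μ x y := (abs_real_inner_le_norm _ _).trans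
    ((mul_le_of_le_one_left (norm_nonneg _) (h.tpp_le y)).trans (grad_hb μ0 x y))
  have a3 : |2 * √2 * (1 - g) * u y * ⟪pp u y, gradient (hb μ x) y⟫| ≤ 3 * (μ * hb μ x y) := by
    rw [abs_mul]
    refine mul_le_mul ?_ a2 (abs_nonneg _) (by norm_num)
    rw [abs_mul, abs_of_nonneg (mul_nonneg (by positivity) (by linarith))]
    refine (mul_le_of_le_one_right (mul_nonneg (by positivity) (by linarith)) (h.lt y).le).trans ?_
    nlinarith [Real.sqrt_two_lt_three_halves, Real.sqrt_nonneg 2]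
  have a4 : √2 * g * ff u y * (1 - qq u y) + (2 * g ^ 2 - 4 * g) * u y ^ 2 * (1 - qq u y) -
      2 * g * u y ^ 2 * qq u y ≤ 2 * √2 * ff u y * (1 - qq u y) - g := by
    rw [show √2 * g * ff u y = g * (√2 * ff u y) by ring,
      show 2 * √2 * ff u y = 2 * (√2 * ff u y) by ring, k3]
    have b1 : 0 ≤ g * u y ^ 2 * qq u y := mul_nonneg (by positivity) (h.q0 y)
    have b2 : 2 * g ≤ 1 - u y ^ 2 + 2 * g * u y ^ 2 := by nlinarith
    have b3 : 1 / 2 ≤ (2 - g) * (1 - qq u y) := by nlinarith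
    nlinarith [mul_le_mul b2 b3 (by norm_num) (by linarith)]
  have a5 : μ ^ 2 + n * μ + 3 * μ ≤ g / 2 := by nlinarith
  rw [h.Lf_pow g (cd_hb μ x), mul_left_comm]
  refine mul_le_mul_of_nonneg_left ?_ F0.le
  nlinarith [mul_le_mul_of_nonneg_left a4 (zero_le_one.trans G1), (abs_le.1 a3).1,
    mul_le_mul_of_nonneg_left a5 (zero_le_one.trans G1)]

/-- the maximum principle for the quotient by the barrier -/
theorem quo (n : ℕ) (C : ℝ) {g μ : ℝ} (g0 : 0 < g) (g1 : g ≤ 1 / 2) (μ0 : 0 ≤ μ)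
    (hμ : (n + 4) * μ ≤ g / 2) : ∃ K > (0 : ℝ), ∀ (u : E n → ℝ) (x : E n) (ρ γ : ℝ), Ok C u →
    Af u x ρ γ → 0 ≤ ρ → (∀ y, ‖y - x‖ ≤ ρ → qq u y ≤ 1 / 2) →
    qq u x ≤ (2 * Real.exp (-(μ * ρ)) + K * γ ^ 2) * (ff u x ^ (-g) * Real.cosh μ) := by
  have n0 : (0 : ℝ) ≤ n := n.cast_nonneg
  obtain ⟨K, K0, hK⟩ := S_sq n C (c := g / (8 * (n + 1))) (by positivity)
  refine ⟨8 * (n + 1) * K / g, by positivity, fun u x ρ γ h a hρ hq => ?_⟩
  set B : E n → ℝ := fun w => ff u w ^ (-g) * hb μ x w with hB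
  have F1 : ∀ y, 1 ≤ ff u y ^ (-g) := fun y =>
    Real.one_le_rpow_of_pos_of_le_one_of_nonpos (h.tff_pos y) (ff_le u y) (neg_nonpos.2 g0.le)
  have B1 : ∀ y, hb μ x y ≤ B y := fun y =>
    le_mul_of_one_le_left (zero_le_one.trans (one_le_hb μ x y)) (F1 y)
  have B2 : ∀ y, 1 ≤ B y := fun y => (one_le_hb μ x y).trans (B1 y)
  have B0 : ∀ y, 0 < B y := fun y => one_pos.trans_le (B2 y)
  have cB : ContDiff ℝ 2 B := c2 ((h.pow_smooth g).mul (cd_hb μ x))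
  have cq := c2 (cd_q h)
  obtain ⟨y, y1, y2⟩ := (isCompact_closedBall x ρ).exists_isMaxOn ⟨x, mem_closedBall_self hρ⟩
    (cq.continuous.div cB.continuous fun y => (B0 y).ne').continuousOn
  have key : qq u y / B y ≤ 2 * Real.exp (-(μ * ρ)) + 8 * (n + 1) * K / g * γ ^ 2 := by
    rw [mem_closedBall, dist_eq_norm] at y1
    rcases y1.eq_or_lt with e | e
    · refine le_add_of_le_of_nonneg ((div_le_iff₀ (B0 y)).2 ((qq_le u y).trans ?_)) (by positivity)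
      have a1 := exp_le_hb μ0 x y
      rw [e] at a1
      rw [Real.exp_neg, mul_assoc, mul_left_comm, le_inv_mul_iff₀ (Real.exp_pos _)]
      linarith [B1 y]
    refine le_add_of_nonneg_of_le (by positivity) ((div_le_self (h.q0 y) (B2 y)).trans ?_)
    have e0 : qq u y = qq u y / B y * B y := (div_mul_cancel₀ _ (B0 y).ne').symm
    have t0 : 0 ≤ qq u y / B y := div_nonneg (h.q0 y) (B0 y).le
    have m : IsLocalMax (fun w => qq u w - qq u y / B y * B w) y := by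
      filter_upwards [closedBall_mem_nhds_of_mem (show y ∈ ball x ρ by rwa [mem_ball, dist_eq_norm])]
        with w hw
      rw [← e0, sub_self, sub_nonpos]
      exact (div_le_iff₀ (B0 w)).1 (y2 hw)
    have a1 := Tl0.lf_sub (u := u) cq cB (qq u y / B y) y
    rw [Lf_q h, Lf, grad_max m, inner_zero_right] at a1
    have a2 := lap_max (cq.sub (contDiff_const.mul cB)) m
    have a3 := mul_le_mul_of_nonneg_left (bar_le (x := x) h g0 g1 μ0 hμ (hq y y1)) t0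
    rw [mul_left_comm, ← e0] at a3
    have a4 := hK u x y ρ γ h a y1
    have a5 : hs (SS u y) ≤ (n + 1) * ‖SS u y‖ ^ 2 :=
      (hs_le _).trans (mul_le_mul_of_nonneg_right (by linarith) (sq_nonneg _))
    have a6 := mul_le_mul_of_nonneg_left a4 (show (0 : ℝ) ≤ n + 1 by positivity)
    have a7 : (n + 1) * (g / (8 * (n + 1)) * qq u y) = g / 8 * qq u y := by field_simp
    have e3 : ‖pp u y‖ ^ 2 = 1 - qq u y := by rw [qq]; ring
    rw [PP, e3] at a1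
    rw [div_mul_eq_mul_div, le_div_iff₀ g0]
    linarith
  have := (div_le_iff₀ (B0 x)).1 ((y2 (mem_closedBall_self hρ)).trans key)
  rwa [← hb_self μ x]

theorem small (a b : ℝ) : ∃ s₀ > (0 : ℝ), ∀ s, s₀ ≤ s → a * s + b ≤ Real.exp (s / 16) := by
  refine ⟨1 + 512 * (|a| + |b|), by positivity, fun s hs => ?_⟩
  have a0 := abs_nonneg a
  have b0 := abs_nonneg b
  have s1 : 1 ≤ s := by linarith
  have := Real.quadratic_le_exp_of_nonneg (x := s / 16) (by positivity)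
  nlinarith [mul_le_mul_of_nonneg_right (le_abs_self a) (zero_le_one.trans s1), le_abs_self b,
    mul_le_mul_of_nonneg_left s1 b0, mul_le_mul_of_nonneg_right hs (zero_le_one.trans s1)]

theorem qp : QP := by
  intro n C M
  have n0 : (0 : ℝ) ≤ n := n.cast_nonneg
  have M1 : 1 ≤ |M| + 1 := le_add_of_nonneg_left (abs_nonneg M)
  obtain ⟨R, R0, γ₀, γ0, hb⟩ := big n C
  obtain ⟨g, hg⟩ : ∃ g, g = 1 / (16 * (|M| + 1)) := ⟨_, rfl⟩
  have g0 : 0 < g := by rw [hg]; positivity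
  have g1 : g ≤ 1 / 2 := by rw [hg]; exact one_div_le_one_div_of_le (by norm_num) (by linarith)
  obtain ⟨μ, μ0, hμ⟩ : ∃ μ > (0 : ℝ), (n + 4) * μ = g / 2 :=
    ⟨g / 2 / (n + 4), by positivity, by field_simp⟩
  obtain ⟨K, K0, hK⟩ := quo n C g0 g1 μ0.le hμ.le
  obtain ⟨s₀, s0, h0⟩ := small (2 / μ) (R + 1 + 1 / γ₀)
  refine ⟨(2 + K) * (2 * Real.cosh μ), Real.exp (-s₀), by positivity, by positivity,
    fun u x Γ h st Γ0 hΓ lo up hx => ?_⟩
  obtain ⟨s, rfl⟩ : ∃ s, Γ = Real.exp (-s) := ⟨-Real.log Γ, by rw [neg_neg, Real.exp_log Γ0]⟩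
  have hs : s₀ ≤ s := neg_le_neg_iff.1 (Real.exp_le_exp.1 hΓ)
  have s1 : 0 < s := s0.trans_le hs
  rw [lg, Real.log_exp, neg_neg] at hx
  have k := h0 s hs
  have pw : ∀ m : ℕ, Real.exp (s / 16) ^ m = Real.exp (m * (s / 16)) :=
    fun m => (Real.exp_nat_mul _ m).symm
  have t1 : 1 ≤ Real.exp (s / 16) := Real.one_le_exp (by positivity)
  have e1 : Real.exp (-s) = (Real.exp (s / 16) ^ 16)⁻¹ := by
    rw [pw, ← Real.exp_neg]; congr 1; push_cast; ring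
  have e2 : √(Real.exp (-s)) = (Real.exp (s / 16) ^ 8)⁻¹ := by
    rw [e1, Real.sqrt_eq_iff_mul_self_eq (by positivity) (by positivity)]; field_simp
  have e3 : Real.exp (-(μ * (2 / μ * s + R))) ≤ (Real.exp (s / 16) ^ 28)⁻¹ := by
    rw [pw, ← Real.exp_neg, Real.exp_le_exp, mul_add, ← mul_assoc, mul_div_cancel₀ _ μ0.ne']
    push_cast
    linarith [mul_pos μ0 R0]
  have e4 := Tl0.fb h M1 s1
    (hx.trans (mul_le_mul_of_nonneg_right ((le_abs_self M).trans (lt_add_one _).le) s1.le))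
  rw [← hg, show s / 8 = (2 : ℕ) * (s / 16) by push_cast; ring, ← pw] at e4
  rw [e2]
  rw [e1] at lo up ⊢
  generalize Real.exp (s / 16) = t at *
  have t0 : 0 < t := one_pos.trans_le t1
  have i0 : 0 < 1 / γ₀ := by positivity
  have r0 : 0 ≤ 2 / μ * s := by positivity
  have af : Af u x (2 / μ * s + R) (t ^ 14)⁻¹ := fun w hw => by
    have a1 := lo (w - x)
    have a2 := up (w - x)
    rw [add_sub_cancel] at a1 a2
    have a3 : (t ^ 16)⁻¹ * ‖w - x‖ ^ 2 ≤ (t ^ 14)⁻¹ :=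
      (mul_le_mul_of_nonneg_left (pow_le_pow_left₀ (norm_nonneg _)
        (show ‖w - x‖ ≤ t by linarith) 2) (by positivity)).trans_eq (by field_simp)
    have a4 : 0 < (t ^ 14)⁻¹ := by positivity
    exact abs_le.2 ⟨by linarith, by linarith⟩
  have a1 := hK u x _ _ h af (by positivity) fun y hy => hb u x y _ _ h st af (by linarith)
    (by positivity) ((inv_le_comm₀ (by positivity) γ0).2 (by
      rw [← one_div]
      exact le_trans (by linarith) (le_self_pow₀ t1 (by norm_num)))) hy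
  have c0 := Real.cosh_pos μ
  have F0 := Real.rpow_pos_of_pos (h.tff_pos x) (-g)
  calc _ ≤ _ := a1
    _ ≤ (2 * (t ^ 28)⁻¹ + K * (t ^ 14)⁻¹ ^ 2) * (2 * t ^ 2 * Real.cosh μ) := by gcongr
    _ = (2 + K) * (2 * Real.cosh μ) * ((t ^ 24)⁻¹ * (t ^ 2)⁻¹) := by field_simp
    _ ≤ (2 + K) * (2 * Real.cosh μ) * ((t ^ 24)⁻¹ * 1) := by
      gcongr
      exact inv_le_one_of_one_le₀ (one_le_pow₀ t1)
    _ = _ := by field_simp

end Vale.Agent.P134R
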